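-- KEEP
import Mathlib

/-!
# Row 255 (BR paper), base language, file 1: finite laws and entropy      (chief helper216)

All probability spaces are finite types `Ω` with a weight function.  An OBSERVATION is any function `X : Ω → α` (`α : Type` arbitrary, no structure needed).
Entropy is the expected surprise, in NATURAL units (`Entn`, `Mutn` of the paper); the normalised quantities divide by `lg ε = log (1/ε)`.
* `P.pr E`      probability of an event `E : Ω → Prop`
* `P.ev f`      expectation
* `P.ent X`     `H(X)`;  `P.entC X Y = H(X | Y)`;  `P.mi X Y = I(X ; Y)`;  `P.miC X Y Z = I(X ; Y | Z)`   (all defined from entropies of tuples)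
* `P.cond E h`  conditional law;  `P.ext κ` adjoining a label by a kernel;  `P.Dom K Q` : `P ≤ K Q`.
Definitions are FROZEN.  Lemmas: `R255/Ent/*.lean` (prefix `ent_`).
-/

set_option autoImplicit false

namespace Claimed.Agent.R255

open scoped BigOperators
open Classical

/-- a finite probability law -/
structure FLaw (Ω : Type) [Fintype Ω] where
  p : Ω → ℝ
  nonneg : ∀ ω, 0 ≤ p ω
  sum_one : ∑ ω, p ω = 1

namespace FLaw

variable {Ω : Type} [Fintype Ω] (P : FLaw Ω)

/-- probability of an event -/
noncomputable def pr (E : Ω → Prop) : ℝ := ∑ ω, if E ω then P.p ω else 0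

/-- expectation -/
noncomputable def ev (f : Ω → ℝ) : ℝ := ∑ ω, P.p ω * f ω

/-- the mass of the fibre of `X` through `ω` -/
noncomputable def fib {α : Type} (X : Ω → α) (ω : Ω) : ℝ := P.pr (fun ω' => X ω' = X ω)

/-- entropy (natural logarithm) = expected surprise -/
noncomputable def ent {α : Type} (X : Ω → α) : ℝ := P.ev (fun ω => - Real.log (P.fib X ω))

/-- the pair of two observations -/
def pair {α β : Type} (X : Ω → α) (Y : Ω → β) : Ω → α × β := fun ω => (X ω, Y ω)

/-- `H(X | Y)` -/
noncomputable def entC {α β : Type} (X : Ω → α) (Y : Ω → β) : ℝ := P.ent (pair X Y) - P.ent Y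

/-- `I(X ; Y)` -/
noncomputable def mi {α β : Type} (X : Ω → α) (Y : Ω → β) : ℝ := P.ent X + P.ent Y - P.ent (pair X Y)

/-- `I(X ; Y | Z)` -/
noncomputable def miC {α β γ : Type} (X : Ω → α) (Y : Ω → β) (Z : Ω → γ) : ℝ :=
  P.ent (pair X Z) + P.ent (pair Y Z) - P.ent (pair (pair X Y) Z) - P.ent Z

/-- conditional surprise `- log P(X | Y)` at the sampled point -/
noncomputable def surC {α β : Type} (X : Ω → α) (Y : Ω → β) (ω : Ω) : ℝ :=
  - Real.log (P.fib (pair X Y) ω / P.fib Y ω)

/-- the conditional law given an event of positive mass -/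
noncomputable def cond (E : Ω → Prop) (h : 0 < P.pr E) : FLaw Ω where
  p := fun ω => (if E ω then P.p ω else 0) / P.pr E
  nonneg := fun ω => div_nonneg (by split_ifs; exacts [P.nonneg ω, le_refl 0]) h.le
  sum_one := by
    rw [← Finset.sum_div]
    exact div_self h.ne'

/-- domination `P ≤ K Q` -/
def Dom (K : ℝ) (Q : FLaw Ω) : Prop := ∀ ω, P.p ω ≤ K * Q.p ω

/-- a stochastic kernel from `Ω` to a finite type -/
structure Ker (Ω Γ : Type) [Fintype Γ] where
  k : Ω → Γ → ℝ
  nonneg : ∀ ω g, 0 ≤ k ω g
  sum_one : ∀ ω, ∑ g, k ω g = 1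

/-- adjoin a label by a kernel -/
noncomputable def ext {Γ : Type} [Fintype Γ] (κ : Ker Ω Γ) : FLaw (Ω × Γ) where
  p := fun x => P.p x.1 * κ.k x.1 x.2
  nonneg := fun x => mul_nonneg (P.nonneg _) (κ.nonneg _ _)
  sum_one := by
    rw [Fintype.sum_prod_type]
    simp only [← Finset.mul_sum, κ.sum_one, mul_one, P.sum_one]

/-- relative entropy `KL(P ‖ Q)` (natural logarithm; meaningful if `P ≪ Q`) -/
noncomputable def kl (Q : FLaw Ω) : ℝ := ∑ ω, P.p ω * Real.log (P.p ω / Q.p ω)

/-- image law on a finite type -/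
noncomputable def map {Ω' : Type} [Fintype Ω'] (φ : Ω → Ω') : FLaw Ω' where
  p := fun x => P.pr (fun ω => φ ω = x)
  nonneg := fun x => Finset.sum_nonneg fun ω _ => by split_ifs; exacts [P.nonneg ω, le_refl 0]
  sum_one := by
    unfold pr
    rw [Finset.sum_comm]
    simp [P.sum_one]

end FLaw

/-- `ℓ = log (1/ε)` -/
noncomputable def lg (ε : ℝ) : ℝ := Real.log (1 / ε)

end Claimed.Agent.R255
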