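-- KEEP
import Claimed.Agent.R255.Base.Law

/-!
# Row 255 (BR paper), base language, file 2: positive transport (Sec. 4.1)      (chief helper216)

A PARTICLE `T` carries `V(T), A(T) ∈ ℝ²`, its position at time `c` is `A + c V`.  A SYSTEM `CSys` is a finite law of `(T, c)` (plus whatever else lives on `Ω`).
An APERTURE LABEL at duration `t`, horizon `L` is ANY observation `G : Ω → Γ` with a geometric read-out `geo : Γ → Geo`, `geo g = (b, a, tc, th, vc, xc)`, such that on the support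
`0 ≤ b ≤ a`, `a + t ≤ L`, `|c - tc| ≤ K ε^t`, `V - vc ∈ K · Rect_th(ε^b, ε^a)`, `A + tc V - xc ∈ K · Rect_th(ε^(b+t), ε^(a+t))`
(first side tangent `(cos th, sin th)`, second side normal `(- sin th, cos th)`).  This is Definition 4.1 in its "bounded enlargement, extra labels permitted" form; `K` = enlargement constant.
* `wt γ g = (1+γ) b + (1-γ) a`;  `tcell ε t c` = dyadic time cell of length `2^(-⌈t log₂(1/ε)⌉) ∈ (ε^t/2, ε^t]` (exactly nested in `t`).
* `S.score γ ε t G geo = E w(G) - I(T;G)/ℓ + 2 H(C_t | T)/ℓ`        (4.3)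
* `S.tau γ ε L` = root supremum `τ_L(T)` : sup over all finite laws `(T', D)` with `T' ∼ T`, `D` a root label (`t = 0`, `tc = 0`, no time information, enlargement constant `1`).
* `UnivBound γ β'` = (4.5) with rate `β'`;  `beta γ = sInf {β' ≥ 0 | UnivBound γ β'}`.
Definitions are FROZEN.
-/

set_option autoImplicit false

namespace Claimed.Agent.R255

open scoped BigOperators
open Classical

/-- inner product on `ℝ × ℝ` -/
def ip (u v : ℝ × ℝ) : ℝ := u.1 * v.1 + u.2 * v.2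

/-- tangent vector of the frame of angle `th` -/
noncomputable def tang (th : ℝ) : ℝ × ℝ := (Real.cos th, Real.sin th)

/-- normal vector of the frame of angle `th` -/
noncomputable def nrm (th : ℝ) : ℝ × ℝ := (- Real.sin th, Real.cos th)

/-- `z` lies in the centred rectangle with half-sides `K ε^b` (tangent), `K ε^a` (normal) -/
def InRect (K ε b a th : ℝ) (z : ℝ × ℝ) : Prop :=
  |ip z (tang th)| ≤ K * ε ^ b ∧ |ip z (nrm th)| ≤ K * ε ^ a

/-- the geometric read-out of an aperture label -/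
structure Geo where
  b : ℝ
  a : ℝ
  tc : ℝ
  th : ℝ
  vc : ℝ × ℝ
  xc : ℝ × ℝ

/-- aperture weight `w(b,a) = (1+γ) b + (1-γ) a` -/
def wt (γ : ℝ) (g : Geo) : ℝ := (1 + γ) * g.b + (1 - γ) * g.a

/-- compatibility of a read-out at duration `t`, horizon `L` with the data `(V, A, c)` -/
def Geo.Compat (g : Geo) (K ε t L : ℝ) (V A : ℝ × ℝ) (c : ℝ) : Prop :=
  0 ≤ g.b ∧ g.b ≤ g.a ∧ g.a + t ≤ L ∧ |c - g.tc| ≤ K * ε ^ t ∧
    InRect K ε g.b g.a g.th (V - g.vc) ∧ InRect K ε (g.b + t) (g.a + t) g.th (A + g.tc • V - g.xc)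

/-- compatibility of a root read-out (duration zero, time representative zero) -/
def Geo.RootCompat (g : Geo) (K ε L : ℝ) (V A : ℝ × ℝ) : Prop :=
  0 ≤ g.b ∧ g.b ≤ g.a ∧ g.a ≤ L ∧ InRect K ε g.b g.a g.th (V - g.vc) ∧ InRect K ε g.b g.a g.th (A - g.xc)

/-- dyadic level of the time grid of depth `t` -/
noncomputable def tlev (ε t : ℝ) : ℕ := ⌈t * Real.logb 2 (1 / ε)⌉₊

/-- the time cell `C_t` -/
noncomputable def tcell (ε t c : ℝ) : ℤ := ⌊c * 2 ^ (tlev ε t)⌋

/-- the representative (left end point) of a time cell -/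
noncomputable def trep (ε t c : ℝ) : ℝ := (tcell ε t c : ℝ) / 2 ^ (tlev ε t)

/-- a finite system of particles and times -/
structure CSys where
  Ω : Type
  fin : Fintype Ω
  P : @FLaw Ω fin
  ι : Type
  T : Ω → ι
  V : ι → ℝ × ℝ
  A : ι → ℝ × ℝ
  c : Ω → ℝ

attribute [instance] CSys.fin

namespace CSys

variable (S : CSys)

/-- all data lie in the box of size `B` (ON THE SUPPORT of the law only: conditional systems keep their space) -/
def Bdd (B : ℝ) : Prop :=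
  ∀ ω, 0 < S.P.p ω → |(S.V (S.T ω)).1| ≤ B ∧ |(S.V (S.T ω)).2| ≤ B ∧ |(S.A (S.T ω)).1| ≤ B ∧ |(S.A (S.T ω)).2| ≤ B ∧
    |S.c ω| ≤ B

/-- `G` with read-out `geo` is an aperture label at duration `t`, horizon `L`, enlargement `K` -/
def IsLabel (K ε t L : ℝ) {Γ : Type} (G : S.Ω → Γ) (geo : Γ → Geo) : Prop :=
  ∀ ω, 0 < S.P.p ω → (geo (G ω)).Compat K ε t L (S.V (S.T ω)) (S.A (S.T ω)) (S.c ω)

/-- the observation `C_t` -/
noncomputable def Ct (ε t : ℝ) : S.Ω → ℤ := fun ω => tcell ε t (S.c ω)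

/-- `S_t = H(C_t | T) / ℓ` -/
noncomputable def St (ε t : ℝ) : ℝ := S.P.entC (S.Ct ε t) S.T / lg ε

/-- the score (4.3) -/
noncomputable def score (γ ε t : ℝ) {Γ : Type} (G : S.Ω → Γ) (geo : Γ → Geo) : ℝ :=
  S.P.ev (fun ω => wt γ (geo (G ω))) - S.P.mi S.T G / lg ε + 2 * S.St ε t

/-- the values of the root tests -/
def tauSet (γ ε L : ℝ) : Set ℝ :=
  {x | ∃ (Ω' : Type) (_ : Fintype Ω') (P' : FLaw Ω') (T' : Ω' → S.ι) (Γ : Type) (D : Ω' → Γ)
      (geo : Γ → Geo),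
      (∀ i, P'.pr (fun ω => T' ω = i) = S.P.pr (fun ω => S.T ω = i)) ∧
      (∀ ω, 0 < P'.p ω → (geo (D ω)).RootCompat 1 ε L (S.V (T' ω)) (S.A (T' ω))) ∧
      x = P'.ev (fun ω => wt γ (geo (D ω))) - P'.mi T' D / lg ε}

/-- the root supremum `τ_L(T)` -/
noncomputable def tau (γ ε L : ℝ) : ℝ := sSup (S.tauSet γ ε L)

end CSys

/-- the uniform finite form (4.5) of "the growth rate is at most `β'`" -/
def UnivBound (γ β' : ℝ) : Prop :=
  ∀ K B Lmax tmin ν : ℝ, 0 < tmin → 0 < ν → ∃ ε₀ : ℝ, 0 < ε₀ ∧ ε₀ < 1 ∧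
    ∀ ε : ℝ, 0 < ε → ε < ε₀ → ∀ t L : ℝ, tmin ≤ t → t ≤ L → L ≤ Lmax →
      ∀ (S : CSys) (Γ : Type) (G : S.Ω → Γ) (geo : Γ → Geo), S.Bdd B → S.IsLabel K ε t L G geo →
        S.score γ ε t G geo ≤ S.tau γ ε L + β' * t + ν

/-- the universal growth rate -/
noncomputable def beta (γ : ℝ) : ℝ := sInf {β' : ℝ | 0 ≤ β' ∧ UnivBound γ β'}

end Claimed.Agent.R255
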