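-- KEEP
import Mathlib

/-!
# Row 255 (BR paper), base language, file 3: limits along a fixed nonprincipal ultrafilter      (chief helper216)

All "`ε → 0`" limits of the paper are taken along `𝓤 = hyperfilter ℕ`: every bounded sequence has a limit `ulim x`, so NO subsequence is ever extracted and limiting profiles are defined at all real depths at once.
The only compactness tool is the diagonal lemma `ulim_diag` (countable saturation).
PACKAGE L-BR-ULIM (Mathlib only, ~250 lines): prove all the `sorry`s of this file.  Routes: `Ultrafilter.le_nhds_lim`/`isCompact_Icc.ultrafilter_le_nhds`, `Filter.Tendsto.limUnder_eq`, `Filter.hyperfilter_le_cofinite`, `Nat.cofinite_eq_atTop`.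
-/

set_option autoImplicit false

namespace Claimed.Agent.R255

open Filter Topology

/-- the fixed ultrafilter, as a filter -/
noncomputable def uf : Filter ℕ := (hyperfilter ℕ : Filter ℕ)

/-- bounded sequences (along the ultrafilter) -/
def UBdd (x : ℕ → ℝ) : Prop := ∃ C : ℝ, ∀ᶠ n in uf, |x n| ≤ C

/-- the ultralimit -/
noncomputable def ulim (x : ℕ → ℝ) : ℝ := limUnder uf x

theorem uf_neBot : uf.NeBot := by
  unfold uf
  infer_instance

theorem uf_le_atTop : uf ≤ atTop := by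
  rw [← Nat.cofinite_eq_atTop]
  exact hyperfilter_le_cofinite

/-- either a property or its negation holds `𝓤`-almost everywhere -/
theorem uf_em (p : ℕ → Prop) : (∀ᶠ n in uf, p n) ∨ (∀ᶠ n in uf, ¬ p n) :=
  Ultrafilter.em (hyperfilter ℕ) p

theorem ulim_tendsto (x : ℕ → ℝ) (h : UBdd x) : Tendsto x uf (𝓝 (ulim x)) := by
  obtain ⟨C, hC⟩ := h
  have h1 : (((hyperfilter ℕ).map x : Ultrafilter ℝ) : Filter ℝ) ≤ 𝓟 (Set.Icc (-C) C) := by
    rw [le_principal_iff]
    show ∀ᶠ n in uf, x n ∈ Set.Icc (-C) C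
    filter_upwards [hC] with n hn
    exact abs_le.1 hn
  obtain ⟨a, -, ha⟩ := isCompact_Icc.ultrafilter_le_nhds _ h1
  exact tendsto_nhds_limUnder ⟨a, ha⟩

theorem ulim_eq_of_tendsto (x : ℕ → ℝ) (a : ℝ) (h : Tendsto x uf (𝓝 a)) : ulim x = a :=
  haveI := uf_neBot
  h.limUnder_eq

theorem ulim_of_atTop (x : ℕ → ℝ) (a : ℝ) (h : Tendsto x atTop (𝓝 a)) : ulim x = a :=
  ulim_eq_of_tendsto x a (h.mono_left uf_le_atTop)

theorem ulim_const (a : ℝ) : ulim (fun _ => a) = a :=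
  ulim_eq_of_tendsto _ a tendsto_const_nhds

theorem ulim_congr (x y : ℕ → ℝ) (h : ∀ᶠ n in uf, x n = y n) : ulim x = ulim y := by
  unfold ulim limUnder
  rw [Filter.map_congr h]

theorem ulim_add (x y : ℕ → ℝ) (hx : UBdd x) (hy : UBdd y) :
    ulim (fun n => x n + y n) = ulim x + ulim y :=
  ulim_eq_of_tendsto _ _ ((ulim_tendsto x hx).add (ulim_tendsto y hy))

theorem ulim_sub (x y : ℕ → ℝ) (hx : UBdd x) (hy : UBdd y) :
    ulim (fun n => x n - y n) = ulim x - ulim y :=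
  ulim_eq_of_tendsto _ _ ((ulim_tendsto x hx).sub (ulim_tendsto y hy))

theorem ulim_mul (x y : ℕ → ℝ) (hx : UBdd x) (hy : UBdd y) :
    ulim (fun n => x n * y n) = ulim x * ulim y :=
  ulim_eq_of_tendsto _ _ ((ulim_tendsto x hx).mul (ulim_tendsto y hy))

theorem ulim_neg (x : ℕ → ℝ) (hx : UBdd x) : ulim (fun n => - x n) = - ulim x :=
  ulim_eq_of_tendsto _ _ (ulim_tendsto x hx).neg

theorem ulim_le (x y : ℕ → ℝ) (hx : UBdd x) (hy : UBdd y) (h : ∀ᶠ n in uf, x n ≤ y n) :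
    ulim x ≤ ulim y :=
  haveI := uf_neBot
  le_of_tendsto_of_tendsto (ulim_tendsto x hx) (ulim_tendsto y hy) h

theorem ulim_le_const (x : ℕ → ℝ) (a : ℝ) (hx : UBdd x) (h : ∀ᶠ n in uf, x n ≤ a) : ulim x ≤ a :=
  haveI := uf_neBot
  le_of_tendsto (ulim_tendsto x hx) h

theorem const_le_ulim (x : ℕ → ℝ) (a : ℝ) (hx : UBdd x) (h : ∀ᶠ n in uf, a ≤ x n) : a ≤ ulim x :=
  haveI := uf_neBot
  ge_of_tendsto (ulim_tendsto x hx) h

/-- `ulim x < a` is witnessed `𝓤`-almost everywhere -/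
theorem eventually_lt_of_ulim_lt (x : ℕ → ℝ) (a : ℝ) (hx : UBdd x) (h : ulim x < a) :
    ∀ᶠ n in uf, x n < a :=
  (ulim_tendsto x hx).eventually_lt_const h

theorem eventually_gt_of_lt_ulim (x : ℕ → ℝ) (a : ℝ) (hx : UBdd x) (h : a < ulim x) :
    ∀ᶠ n in uf, a < x n :=
  (ulim_tendsto x hx).eventually_const_lt h

theorem UBdd.add {x y : ℕ → ℝ} (hx : UBdd x) (hy : UBdd y) : UBdd (fun n => x n + y n) := by
  obtain ⟨C, hC⟩ := hx
  obtain ⟨D, hD⟩ := hy
  refine ⟨C + D, ?_⟩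
  filter_upwards [hC, hD] with n h1 h2
  exact (abs_add_le _ _).trans (add_le_add h1 h2)

theorem UBdd.sub {x y : ℕ → ℝ} (hx : UBdd x) (hy : UBdd y) : UBdd (fun n => x n - y n) := by
  obtain ⟨C, hC⟩ := hx
  obtain ⟨D, hD⟩ := hy
  refine ⟨C + D, ?_⟩
  filter_upwards [hC, hD] with n h1 h2
  exact (abs_sub _ _).trans (add_le_add h1 h2)

theorem UBdd.mul {x y : ℕ → ℝ} (hx : UBdd x) (hy : UBdd y) : UBdd (fun n => x n * y n) := by
  obtain ⟨C, hC⟩ := hx
  obtain ⟨D, hD⟩ := hy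
  refine ⟨C * D, ?_⟩
  filter_upwards [hC, hD] with n h1 h2
  rw [abs_mul]
  exact mul_le_mul h1 h2 (abs_nonneg _) ((abs_nonneg _).trans h1)

theorem UBdd.of_le {x : ℕ → ℝ} (a b : ℝ) (h : ∀ᶠ n in uf, a ≤ x n ∧ x n ≤ b) : UBdd x := by
  refine ⟨max |a| |b|, ?_⟩
  filter_upwards [h] with n hn
  exact abs_le_max_abs_abs hn.1 hn.2

/-- **Diagonal lemma** (countable saturation).  `good k n` = "the object number `n` of the `k`-th sequence satisfies the first `k` requirements up to `1/k`".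
If every `good k` holds `𝓤`-almost everywhere, there is `κ : ℕ → ℕ` tending to infinity along `𝓤` with `good (κ n) n` `𝓤`-almost everywhere. -/
theorem ulim_diag (good : ℕ → ℕ → Prop) (h : ∀ k, ∀ᶠ n in uf, good k n) :
    ∃ κ : ℕ → ℕ, Tendsto κ uf atTop ∧ ∀ᶠ n in uf, good (κ n) n := by
  classical
  refine ⟨fun n => Nat.findGreatest (fun k => ∀ j ≤ k, good j n) n, ?_, ?_⟩
  · refine tendsto_atTop.2 fun K => ?_
    have h1 : ∀ᶠ n in uf, ∀ j ∈ Finset.range (K + 1), good j n :=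
      (eventually_all_finset _).2 fun j _ => h j
    filter_upwards [h1, uf_le_atTop (eventually_ge_atTop K)] with n hn hK
    exact Nat.le_findGreatest hK fun j hj => hn j (Finset.mem_range.2 (Nat.lt_succ_of_le hj))
  · filter_upwards [h 0] with n hn
    have h0 : ∀ j ≤ 0, good j n := fun j hj => by
      rw [Nat.le_zero.1 hj]
      exact hn
    exact Nat.findGreatest_spec (P := fun k => ∀ j ≤ k, good j n) (Nat.zero_le n) h0 _ le_rfl

end Claimed.Agent.R255
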