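-- KEEP
import Claimed.Agent.R255.Base.Classical
import Claimed.Agent.R255.Base.Ulim

/-!
# Row 255 (BR paper), base language, file 4: sequences of systems, homogeneity, the two kinds of extremisers      (chief helper216)

* `CSeq` : a sequence of finite systems in one bounded domain, precisions `ε n → 0` along `𝓤`.
* `Q.toH X d`, `Q.toHC Y X d`, `Q.toI X Y d` : "the normalised entropy / conditional entropy / information tends to `d`" (along `𝓤`; no junk values).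
  `Q.H`, `Q.HC`, `Q.I`, `Q.IC` : the ultralimits (meaningful for bounded sequences).
* `Q.Homog Y X d` : `Y` given `X` is homogeneous with exponent `d` (Sec. 2.3): conditional entropy `→ d` and conditional surprise `→ d` in probability.
  BEFORE any restriction of subpower mass one first trims to the event `|surprise/ℓ - d| ≤ η_n` (mass `→ 1`) : Lemma 2.4.
* `Q.CapReg γ L` : cap regularity (4.7) at the level `τ_L`.
* `Iso γ s`  : the isotropic saturated extremiser of Proposition 4.8 (1).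
* `Matched γ m` : the matched saturated path of Proposition 4.8 (2) in the row frame, i.e. one slope `R` on the same spaces; ALL its observations are the canonical functions `mObs` of `(T, c, R)` of (6.1).
Definitions are FROZEN (ask helper216).
-/

set_option autoImplicit false

namespace Claimed.Agent.R255

open Filter Topology
open Classical

/-- a sequence of systems -/
structure CSeq where
  ε : ℕ → ℝ
  S : ℕ → CSys
  pos : ∀ n, 0 < ε n ∧ ε n < 1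
  lim : Tendsto ε uf (𝓝 0)
  B : ℝ
  bdd : ∀ᶠ n in uf, (S n).Bdd B

namespace CSeq

variable (Q : CSeq)

/-- a sequence of observations -/
abbrev Obs (α : ℕ → Type) := ∀ n, (Q.S n).Ω → α n

/-- the particle -/
def T : Q.Obs (fun n => (Q.S n).ι) := fun n => (Q.S n).T

/-- pairs of sequences of observations -/
def pr2 {α β : ℕ → Type} (X : Q.Obs α) (Y : Q.Obs β) : Q.Obs (fun n => α n × β n) :=
  fun n => FLaw.pair (X n) (Y n)

noncomputable def seqH {α : ℕ → Type} (X : Q.Obs α) : ℕ → ℝ :=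
  fun n => (Q.S n).P.ent (X n) / lg (Q.ε n)

noncomputable def seqHC {α β : ℕ → Type} (Y : Q.Obs α) (X : Q.Obs β) : ℕ → ℝ :=
  fun n => (Q.S n).P.entC (Y n) (X n) / lg (Q.ε n)

noncomputable def seqI {α β : ℕ → Type} (X : Q.Obs α) (Y : Q.Obs β) : ℕ → ℝ :=
  fun n => (Q.S n).P.mi (X n) (Y n) / lg (Q.ε n)

noncomputable def seqIC {α β γ : ℕ → Type} (X : Q.Obs α) (Y : Q.Obs β) (Z : Q.Obs γ) : ℕ → ℝ :=
  fun n => (Q.S n).P.miC (X n) (Y n) (Z n) / lg (Q.ε n)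

def toH {α : ℕ → Type} (X : Q.Obs α) (d : ℝ) : Prop := Tendsto (Q.seqH X) uf (𝓝 d)

def toHC {α β : ℕ → Type} (Y : Q.Obs α) (X : Q.Obs β) (d : ℝ) : Prop :=
  Tendsto (Q.seqHC Y X) uf (𝓝 d)

def toI {α β : ℕ → Type} (X : Q.Obs α) (Y : Q.Obs β) (d : ℝ) : Prop :=
  Tendsto (Q.seqI X Y) uf (𝓝 d)

noncomputable def H {α : ℕ → Type} (X : Q.Obs α) : ℝ := ulim (Q.seqH X)

noncomputable def HC {α β : ℕ → Type} (Y : Q.Obs α) (X : Q.Obs β) : ℝ := ulim (Q.seqHC Y X)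

noncomputable def I {α β : ℕ → Type} (X : Q.Obs α) (Y : Q.Obs β) : ℝ := ulim (Q.seqI X Y)

noncomputable def IC {α β γ : ℕ → Type} (X : Q.Obs α) (Y : Q.Obs β) (Z : Q.Obs γ) : ℝ :=
  ulim (Q.seqIC X Y Z)

/-- `Y` given `X` is homogeneous with exponent `d` -/
def Homog {α β : ℕ → Type} (Y : Q.Obs α) (X : Q.Obs β) (d : ℝ) : Prop :=
  Q.toHC Y X d ∧ ∀ η : ℝ, 0 < η →
    Tendsto (fun n => (Q.S n).P.pr
      (fun ω => η < |(Q.S n).P.surC (Y n) (X n) ω / lg (Q.ε n) - d|)) uf (𝓝 0)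

/-- the time cells `C_u` -/
noncomputable def C (u : ℝ) : Q.Obs (fun _ => ℤ) := fun n => (Q.S n).Ct (Q.ε n) u

/-- the sequence `τ_L(T)` -/
noncomputable def seqTau (γ L : ℝ) : ℕ → ℝ := fun n => (Q.S n).tau γ (Q.ε n) L

end CSeq

/-- the mass of the `K`-enlarged root cap of a read-out -/
noncomputable def CSys.capPr (S : CSys) (K ε : ℝ) (g : Geo) : ℝ :=
  S.P.pr (fun ω => InRect K ε g.b g.a g.th (S.V (S.T ω) - g.vc) ∧
    InRect K ε g.b g.a g.th (S.A (S.T ω) - g.xc))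

/-- cap regularity (4.7): every (enlarged) root cap has mass at most `ε^(w - τ - η)` -/
def CSeq.CapReg (Q : CSeq) (γ L : ℝ) : Prop :=
  ∀ K η : ℝ, 0 < η → ∀ᶠ n in uf, ∀ g : Geo, 0 ≤ g.b → g.b ≤ g.a → g.a ≤ L →
    (Q.S n).capPr K (Q.ε n) g ≤ (Q.ε n) ^ (wt γ g - Q.seqTau γ L n - η)

/-! ## the isotropic extremiser -/

/-- `O_u = (C_u, [A + C_u V]_u)` -/
noncomputable def iObs (ε u : ℝ) (V A : ℝ × ℝ) (c : ℝ) : ℤ × ℤ × ℤ :=
  (tcell ε u c, tcell ε u (A.1 + trep ε u c * V.1), tcell ε u (A.2 + trep ε u c * V.2))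

/-- `V_d` -/
noncomputable def vObs (ε d : ℝ) (V : ℝ × ℝ) : ℤ × ℤ := (tcell ε d V.1, tcell ε d V.2)

noncomputable def CSeq.O (Q : CSeq) (u : ℝ) : Q.Obs (fun _ => ℤ × ℤ × ℤ) :=
  fun n ω => iObs (Q.ε n) u ((Q.S n).V ((Q.S n).T ω)) ((Q.S n).A ((Q.S n).T ω)) ((Q.S n).c ω)

noncomputable def CSeq.Vd (Q : CSeq) (d : ℝ) : Q.Obs (fun _ => ℤ × ℤ) :=
  fun n ω => vObs (Q.ε n) d ((Q.S n).V ((Q.S n).T ω))

/-- Proposition 4.8 (1): saturated isotropic sequence of duration and horizon one, with homogeneous conditional time entropy `s` at depth one (the linear profile is not needed in Sec. 5), cap regular -/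
structure Iso (γ s : ℝ) where
  Q : CSeq
  sat : Tendsto (fun n => - Q.seqI Q.T (Q.O 1) n + 2 * Q.seqHC (Q.C 1) Q.T n - Q.seqTau γ 1 n) uf
    (𝓝 (beta γ))
  time : Q.Homog (Q.C 1) Q.T s
  cap : Q.CapReg γ 1

/-! ## the matched extremiser -/

/-- a depth configuration `(L_X, L_Y, L_W, L_Z, v)` -/
structure Cfg where
  LX : ℝ
  LY : ℝ
  LW : ℝ
  LZ : ℝ
  v : ℝ

/-- the admissible domain (6.2) -/
def Cfg.Adm (m : ℝ) (z : Cfg) : Prop :=
  z.LY - z.LX ≤ z.v ∧ z.LW - z.LX ≤ m * z.v ∧ z.LZ - z.LW ≤ z.v ∧ z.LZ - z.LY ≤ m * z.v ∧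
    0 < z.v ∧ z.v < 1

/-- the matched plane (6.3) -/
def plane (m i u : ℝ) : Cfg := ⟨i, i + u, i + m * u, i + (1 + m) * u, u⟩

/-- the observation `O(𝐋, v)` of (6.1): `(C_v, R_{mv}, [X], [Y], [W], [Z])`, `X = V₁`, `Y = A₁ + C_v X`, `W = V₂ - R_{mv} X`, `Z = A₂ + C_v V₂ - R_{mv} Y` -/
noncomputable def mObs (m ε : ℝ) (z : Cfg) (V A : ℝ × ℝ) (c R : ℝ) : ℤ × ℤ × ℤ × ℤ × ℤ × ℤ :=
  (tcell ε z.v c, tcell ε (m * z.v) R, tcell ε z.LX V.1, tcell ε z.LY (A.1 + trep ε z.v c * V.1),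
    tcell ε z.LW (V.2 - trep ε (m * z.v) R * V.1),
    tcell ε z.LZ (A.2 + trep ε z.v c * V.2 - trep ε (m * z.v) R * (A.1 + trep ε z.v c * V.1)))

/-- the label-only observation `(C_{v₁}, R_{v₂})` with independent depths (Sec. 7) -/
noncomputable def lObs (ε v₁ v₂ c R : ℝ) : ℤ × ℤ × ℤ × ℤ × ℤ × ℤ := (tcell ε v₁ c, tcell ε v₂ R, 0, 0, 0, 0)

/-- a symbol of the homogeneous list: a configuration or a pair of label depths -/
abbrev Sym : Type := Cfg ⊕ (ℝ × ℝ)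

/-- admissible symbols -/
def Sym.Adm (m : ℝ) : Sym → Prop
  | Sum.inl z => z.Adm m
  | Sum.inr v => 0 ≤ v.1 ∧ v.1 ≤ 1 ∧ 0 ≤ v.2 ∧ v.2 ≤ m

/-- Proposition 4.8 (2) + the homogeneous choice of Sec. 6.1 -/
structure Matched (γ m : ℝ) where
  Q : CSeq
  R : ∀ n, (Q.S n).Ω → ℝ
  RB : ℝ
  Rbd : ∀ n ω, |R n ω| ≤ RB
  b : ℝ → ℝ
  κ : ℝ
  κpos : 0 < κ
  b_nonneg : ∀ u, 0 < u → u < 1 → 0 ≤ b u
  b_top : ∀ u, 0 < u → u < 1 → b u + (1 + m) * u ≤ 1 + m
  b_anti : ∀ r t, 0 < r → r ≤ t → t < 1 → b t ≤ b r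
  b_lip : ∀ r t, 0 < r → r ≤ t → t < 1 → b r - b t ≤ (1 + m) * (t - r)

namespace Matched

variable {γ m : ℝ} (M : Matched γ m)

/-- the observation at a configuration -/
noncomputable def O (z : Cfg) : M.Q.Obs (fun _ => ℤ × ℤ × ℤ × ℤ × ℤ × ℤ) :=
  fun n ω => mObs m (M.Q.ε n) z ((M.Q.S n).V ((M.Q.S n).T ω)) ((M.Q.S n).A ((M.Q.S n).T ω))
    ((M.Q.S n).c ω) (M.R n ω)

/-- the observation of a symbol: a configuration, or the label-only pair `(C_{v₁}, R_{v₂})` -/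
noncomputable def OS (x : Sym) : M.Q.Obs (fun _ => ℤ × ℤ × ℤ × ℤ × ℤ × ℤ) :=
  fun n ω => match x with
    | Sum.inl z => M.O z n ω
    | Sum.inr v => lObs (M.Q.ε n) v.1 v.2 ((M.Q.S n).c ω) (M.R n ω)

/-- finite tuples of observations -/
noncomputable def OL (zs : List Sym) : M.Q.Obs (fun _ => List (ℤ × ℤ × ℤ × ℤ × ℤ × ℤ)) :=
  fun n ω => zs.map (fun z => M.OS z n ω)

/-- the slope prefix `R_d` -/
noncomputable def Rd (d : ℝ) : M.Q.Obs (fun _ => ℤ) := fun n ω => tcell (M.Q.ε n) d (M.R n ω)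

/-- the properties of the matched path -/
structure Good : Prop where
  /-- saturation on the contact curve `i = b(u)` -/
  sat : ∀ u, 0 < u → u < 1 →
    Tendsto (fun n => 2 * M.b u + (1 - γ) * m * u - M.Q.seqI M.Q.T (M.O (plane m (M.b u) u)) n
      + 2 * M.Q.seqHC (M.Q.C u) M.Q.T n - M.Q.seqTau γ (1 + m) n) uf (𝓝 (beta γ * u))
  /-- prediction of the orientation -/
  pred : ∀ u, 0 < u → u < 1 → M.Q.toHC (M.Rd (m * u)) (M.Q.pr2 M.Q.T (M.Q.C u)) 0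
  /-- (4.10) -/
  growth : ∀ u h, 0 < u → 0 < h → u + h < 1 → ∀ η, 0 < η →
    ∀ᶠ n in uf, M.κ * h - η ≤ M.Q.seqHC (M.Rd (m * (u + h))) (M.Q.pr2 M.Q.T (M.Q.C u)) n
  /-- homogeneity of all finite tuples of admissible symbols (configurations and label-only pairs), also conditionally on the particle -/
  hom : ∀ zs zs' : List Sym, (∀ z ∈ zs, z.Adm m) → (∀ z ∈ zs', z.Adm m) →
    (∃ d, M.Q.Homog (M.OL zs) (M.OL zs') d) ∧ (∃ d, M.Q.Homog (M.OL zs) (M.Q.pr2 M.Q.T (M.OL zs')) d)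
  cap : M.Q.CapReg γ (1 + m)

end Matched

end Claimed.Agent.R255
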